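import Vale.Agent.P146.Ub.Conv0

/-!
# P146, Ce: exponential concentration at the scale of the variance bound, definitions
-/

open MeasureTheory ProbabilityTheory

namespace Vale.Agent.P146.Ce

open Vale.Agent.P146.Ub.Cv

variable {ι : Type} [Fintype ι]

/-- regularity without the bound of the gradient -/
structure RegD (F : (ι → ℝ) → ℝ) (G H : ι → (ι → ℝ) → ℝ) [DecidableEq ι] : Prop where
  F_dom : Dom F
  G_dom : ∀ i, Dom (G i)
  H_dom : ∀ i, Dom (H i)
  F_diff : ∀ g, HasFDerivAt F
    (∑ i, G i g • ContinuousLinearMap.proj (R := ℝ) (φ := fun _ : ι => ℝ) i) g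
  G_diff : ∀ i g t, HasDerivAt (fun t => G i (Function.update g i t))
    (H i (Function.update g i t)) t

end Vale.Agent.P146.Ce
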