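import Vale.Agent.P146.Ce.CeDefs
import Vale.Agent.P146.Lt.LtPL

/-!
# P146, Ce: the lower tail of a convex function of a Gaussian vector at the scale of its
standard deviation
-/

open MeasureTheory ProbabilityTheory
open scoped ENNReal

namespace Vale.Agent.P146.Ce

open Vale.Agent.P146.Ub.Cv

variable {ι : Type} [Fintype ι] {F : (ι → ℝ) → ℝ} {G : ι → (ι → ℝ) → ℝ}

private lemma lw_convex (hconv : ∀ z w : ι → ℝ, F z + ∑ i, G i z * w i ≤ F (fun i => z i + w i))
    {s t : ℝ} (hs : 0 ≤ s) (ht : 0 ≤ t) (hst : s + t = 1) (x y : ι → ℝ) :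
    F (s • x + t • y) ≤ s * F x + t * F y := by
  set z : ι → ℝ := s • x + t • y with hz
  have h1 := hconv z (fun i => x i - z i)
  have h2 := hconv z (fun i => y i - z i)
  have e1 : (fun i => z i + (x i - z i)) = x := by funext i; ring
  have e2 : (fun i => z i + (y i - z i)) = y := by funext i; ring
  rw [e1] at h1
  rw [e2] at h2
  have h3 : s * ∑ i, G i z * (x i - z i) + t * ∑ i, G i z * (y i - z i) = 0 := by
    rw [Finset.mul_sum, Finset.mul_sum, ← Finset.sum_add_distrib]
    refine Finset.sum_eq_zero fun i _ => ?_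
    have : s * x i + t * y i = z i := by simp [hz]
    have h4 : s * (x i - z i) + t * (y i - z i) = 0 := by
      have : s * (x i - z i) + t * (y i - z i) = (s * x i + t * y i) - (s + t) * z i := by ring
      rw [this, hst]; linarith
    linear_combination (G i z) * h4
  have h5 := mul_le_mul_of_nonneg_left h1 hs
  have h6 := mul_le_mul_of_nonneg_left h2 ht
  have h7 : s * F z + t * F z = F z := by rw [← add_mul, hst, one_mul]
  nlinarith

private lemma lw_logconc (hF : Lin F)
    (hconv : ∀ z w : ι → ℝ, F z + ∑ i, G i z * w i ≤ F (fun i => z i + w i))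
    {s t : ℝ} (hs : 0 < s) (ht : 0 < t) (hst : s + t = 1) (a b : ℝ) :
    (gpi ι).real {g | F g ≤ a} ^ s * (gpi ι).real {g | F g ≤ b} ^ t ≤
      (gpi ι).real {g | F g ≤ s * a + t * b} := by
  have hm : ∀ c : ℝ, MeasurableSet {g | F g ≤ c} := fun c =>
    (isClosed_le hF.cont continuous_const).measurableSet
  have key := Vale.Agent.P146.Lt.gauss_pl hs ht hst
    (Set.indicator {g | F g ≤ a} 1) (Set.indicator {g | F g ≤ b} 1)
    (Set.indicator {g | F g ≤ s * a + t * b} 1)
    ((measurable_const).indicator (hm a)) ((measurable_const).indicator (hm b))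
    ((measurable_const).indicator (hm _)) (fun x y => ?_)
  · rw [lintegral_indicator_one (hm a), lintegral_indicator_one (hm b),
      lintegral_indicator_one (hm _)] at key
    have h1 := ENNReal.toReal_mono (measure_ne_top _ _) key
    rw [ENNReal.toReal_mul, ← ENNReal.toReal_rpow, ← ENNReal.toReal_rpow] at h1
    exact h1
  · by_cases hx : F x ≤ a
    · by_cases hy : F y ≤ b
      · have hxy : F (s • x + t • y) ≤ s * a + t * b := by
          refine (lw_convex hconv hs.le ht.le hst x y).trans ?_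
          gcongr
        have e1 : Set.indicator {g | F g ≤ a} (1 : (ι → ℝ) → ℝ≥0∞) x = 1 :=
          Set.indicator_of_mem (s := {g | F g ≤ a}) (a := x) hx 1
        have e2 : Set.indicator {g | F g ≤ b} (1 : (ι → ℝ) → ℝ≥0∞) y = 1 :=
          Set.indicator_of_mem (s := {g | F g ≤ b}) (a := y) hy 1
        have e3 : Set.indicator {g | F g ≤ s * a + t * b} (1 : (ι → ℝ) → ℝ≥0∞)
            (s • x + t • y) = 1 :=
          Set.indicator_of_mem (s := {g | F g ≤ s * a + t * b}) (a := s • x + t • y) hxy 1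
        rw [e1, e2, e3, ENNReal.one_rpow, ENNReal.one_rpow, one_mul, one_mul]
        rw [ENNReal.one_le_ofReal, Real.one_le_exp_iff]
        have : 0 ≤ ∑ i, (x i - y i) ^ 2 := Finset.sum_nonneg fun i _ => sq_nonneg _
        positivity
      · have e2 : Set.indicator {g | F g ≤ b} (1 : (ι → ℝ) → ℝ≥0∞) y = 0 :=
          Set.indicator_of_notMem (s := {g | F g ≤ b}) (a := y) hy 1
        rw [e2, ENNReal.zero_rpow_of_pos ht, mul_zero]
        positivity
    · have e2 : Set.indicator {g | F g ≤ a} (1 : (ι → ℝ) → ℝ≥0∞) x = 0 :=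
        Set.indicator_of_notMem (s := {g | F g ≤ a}) (a := x) hx 1
      rw [e2, ENNReal.zero_rpow_of_pos hs, zero_mul]
      positivity

/-- the lower tail: a convex function of a Gaussian vector has sub-exponential lower tails at the
scale of its standard deviation -/
theorem low_exp (hF : Lin F)
    (hconv : ∀ z w : ι → ℝ, F z + ∑ i, G i z * w i ≤ F (fun i => z i + w i))
    {σ : ℝ} (hσ : 0 < σ) (hV : ∫ g, F g ^ 2 ∂(gpi ι) - (∫ g, F g ∂(gpi ι)) ^ 2 ≤ σ ^ 2)
    {t : ℝ} (ht : 0 ≤ t) :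
    (gpi ι).real {g | F g ≤ ∫ g, F g ∂(gpi ι) - t * σ} ≤ 2 * Real.exp (-(t / 4)) := by
  set m : ℝ := ∫ g, F g ∂(gpi ι) with hm
  set φ : ℝ → ℝ := fun v => (gpi ι).real {g | F g ≤ v} with hφ
  have hφ1 : ∀ v, φ v ≤ 1 := fun v => measureReal_le_one
  have hφ0 : ∀ v, 0 ≤ φ v := fun v => measureReal_nonneg
  rcases le_or_gt t 2 with h2 | h2
  · refine (hφ1 _).trans ?_
    have : Real.exp (-(1 / 2)) ≤ Real.exp (-(t / 4)) := Real.exp_le_exp.2 (by linarith)
    have h3 := Real.add_one_le_exp (-(1 / 2 : ℝ))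
    linarith
  have hmem : MemLp F 2 (gpi ι) := by
    rw [memLp_two_iff_integrable_sq hF.cont.aestronglyMeasurable]
    exact (hF.dom.pow 2).integrable
  have hvar : Var[F; gpi ι] ≤ σ ^ 2 := by
    rw [variance_eq_sub hmem]
    exact hV
  have hch : (gpi ι).real {g | 2 * σ ≤ |F g - m|} ≤ 1 / 4 := by
    have h := meas_ge_le_variance_div_sq hmem (show 0 < 2 * σ by positivity)
    have h' := ENNReal.toReal_mono ENNReal.ofReal_ne_top h
    rw [ENNReal.toReal_ofReal (div_nonneg (variance_nonneg _ _) (by positivity))] at h'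
    refine h'.trans ?_
    rw [div_le_div_iff₀ (by positivity) (by norm_num)]
    nlinarith
  have hlo : φ (m - 2 * σ) ≤ 1 / 4 := by
    refine (measureReal_mono ?_).trans hch
    intro g hg
    have : F g ≤ m - 2 * σ := hg
    show 2 * σ ≤ |F g - m|
    rw [abs_sub_comm]
    exact (by linarith : 2 * σ ≤ m - F g).trans (le_abs_self _)
  have hhi : 3 / 4 ≤ φ (m + 2 * σ) := by
    have hms : MeasurableSet {g | F g ≤ m + 2 * σ} :=
      (isClosed_le hF.cont continuous_const).measurableSet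
    have h1 : (gpi ι).real {g | F g ≤ m + 2 * σ}ᶜ ≤ 1 / 4 := by
      refine (measureReal_mono ?_).trans hch
      intro g hg
      have : m + 2 * σ < F g := not_le.1 hg
      show 2 * σ ≤ |F g - m|
      exact (by linarith : 2 * σ ≤ F g - m).trans (le_abs_self _)
    rw [probReal_compl_eq_one_sub hms] at h1
    show 3 / 4 ≤ (gpi ι).real {g | F g ≤ m + 2 * σ}
    linarith
  set s : ℝ := 4 / (t + 2) with hs
  have hs0 : 0 < s := by positivity
  have hs1 : s < 1 := by
    rw [hs, div_lt_one (by positivity)]; linarith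
  have hlc := lw_logconc hF hconv hs0 (show 0 < 1 - s by linarith) (by ring) (m - t * σ)
    (m + 2 * σ)
  have e1 : s * (m - t * σ) + (1 - s) * (m + 2 * σ) = m - 2 * σ := by
    have : s * (t + 2) = 4 := by rw [hs]; field_simp
    linear_combination (-σ) * this
  rw [e1] at hlc
  have h5 : φ (m - t * σ) ^ s * (3 / 4 : ℝ) ^ (1 - s) ≤ 1 / 4 := by
    refine le_trans ?_ (hlc.trans hlo)
    refine mul_le_mul_of_nonneg_left ?_ (Real.rpow_nonneg (hφ0 _) _)
    exact Real.rpow_le_rpow (by norm_num) hhi (by linarith)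
  have h6 : φ (m - t * σ) ^ s ≤ (1 / 3 : ℝ) * (3 / 4) ^ s := by
    have h7 : (3 / 4 : ℝ) ^ (1 - s) = (3 / 4) * ((3 / 4) ^ s)⁻¹ := by
      rw [Real.rpow_sub (by norm_num), Real.rpow_one, div_eq_mul_inv]
    have h8 : (0 : ℝ) < (3 / 4) ^ s := Real.rpow_pos_of_pos (by norm_num) _
    rw [h7] at h5
    have h9 := mul_le_mul_of_nonneg_right h5 h8.le
    have h10 : φ (m - t * σ) ^ s * (3 / 4 * ((3 / 4) ^ s)⁻¹) * (3 / 4) ^ s =
        φ (m - t * σ) ^ s * (3 / 4) := by
      field_simp
    rw [h10] at h9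
    linarith
  have h11 : φ (m - t * σ) ≤ ((1 / 3 : ℝ) * (3 / 4) ^ s) ^ (s⁻¹) := by
    have := Real.rpow_le_rpow (Real.rpow_nonneg (hφ0 _) _) h6 (inv_nonneg.2 hs0.le)
    rwa [← Real.rpow_mul (hφ0 _), mul_inv_cancel₀ hs0.ne', Real.rpow_one] at this
  refine h11.trans ?_
  rw [Real.mul_rpow (by norm_num) (Real.rpow_nonneg (by norm_num) _),
    ← Real.rpow_mul (by norm_num), mul_inv_cancel₀ hs0.ne', Real.rpow_one]
  have h12 : (1 / 3 : ℝ) ≤ Real.exp (-1) := by
    rw [Real.exp_neg, one_div]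
    exact inv_anti₀ (Real.exp_pos _) (by linarith [Real.exp_one_lt_d9])
  have h13 : (1 / 3 : ℝ) ^ s⁻¹ ≤ Real.exp (-(t / 4)) := by
    refine (Real.rpow_le_rpow (by norm_num) h12 (inv_nonneg.2 hs0.le)).trans ?_
    rw [← Real.exp_mul]
    refine Real.exp_le_exp.2 ?_
    rw [hs, inv_div]
    linarith
  nlinarith [Real.exp_pos (-(t / 4))]

end Vale.Agent.P146.Ce
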