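import Vale.Agent.P146.Ce.CeDefs

/-!
# P146, Ce: the total inequality of the tilted measure, over the statement of `tilt_cond`
-/

open MeasureTheory ProbabilityTheory

namespace Vale.Agent.P146.Ce

open Vale.Agent.P146.Ub.Cv

variable {ι : Type} [Fintype ι]

/-- two conditionally independent copies -/
theorem two_int {f h : (ι → ℝ) → ℝ} (hf : Dom f) (hh : Dom h) {c s : ℝ} (hc : |c| ≤ 1)
    (hs : |s| ≤ 1) :
    Integrable (fun z => (∫ y, f (mix c s z y) ∂(gpi ι)) * ∫ y, h (mix c s z y) ∂(gpi ι))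
      (gpi ι) ∧
    ∫ g : J3 ι → ℝ, f (mix c s (pu g) (pv g)) * h (mix c s (pu g) (pw g)) ∂(gpi (J3 ι)) =
      ∫ z, (∫ y, f (mix c s z y) ∂(gpi ι)) * (∫ y, h (mix c s z y) ∂(gpi ι)) ∂(gpi ι) := by
  set F : (ι → ℝ) × ((ι → ℝ) × (ι → ℝ)) → ℝ := fun q =>
    f (mix c s q.1 q.2.1) * h (mix c s q.1 q.2.2) with hF
  have cf : Continuous F :=
    (hf.cont.comp (cont_mix continuous_const continuous_const continuous_fst
      (continuous_fst.comp continuous_snd))).mul
    (hh.cont.comp (cont_mix continuous_const continuous_const continuous_fst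
      (continuous_snd.comp continuous_snd)))
  have i1 : Integrable F ((gpi ι).prod ((gpi ι).prod (gpi ι))) := by
    rw [← (mp3 (ι := ι)).integrable_comp cf.aestronglyMeasurable]
    exact ((dom_uv hf hc hs).mul (dom_uw hh hc hs)).integrable
  have e1 := int_J3 cf
  have e2 : ∫ g : J3 ι → ℝ, F (pu g, (pv g, pw g)) ∂(gpi (J3 ι)) =
      ∫ g : J3 ι → ℝ, f (mix c s (pu g) (pv g)) * h (mix c s (pu g) (pw g)) ∂(gpi (J3 ι)) := rfl
  have e3 : ∀ z, ∫ q, F (z, q) ∂((gpi ι).prod (gpi ι)) =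
      (∫ y, f (mix c s z y) ∂(gpi ι)) * ∫ y, h (mix c s z y) ∂(gpi ι) := fun z => by
    simp only [hF]
    exact integral_prod_mul (fun y => f (mix c s z y)) (fun y => h (mix c s z y))
  have i2 := i1.integral_prod_left
  simp only [e3] at i2
  refine ⟨i2, ?_⟩
  rw [← e2, e1, integral_prod _ i1]
  exact integral_congr_ae (Filter.Eventually.of_forall e3)

/-- one copy -/
theorem one_int {f : (ι → ℝ) → ℝ} (hf : Dom f) {c s : ℝ} (hcs : c ^ 2 + s ^ 2 = 1) :
    ∫ z, (∫ y, f (mix c s z y) ∂(gpi ι)) ∂(gpi ι) = ∫ g, f g ∂(gpi ι) := by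
  rw [← integral_prod (fun q : (ι → ℝ) × (ι → ℝ) => f (mix c s q.1 q.2))
    ((mp_mix hcs).integrable_comp_of_integrable hf.integrable)]
  exact int_mix hcs hf.cont

theorem int_uv {f : (ι → ℝ) → ℝ} (hf : Dom f) {c s : ℝ} (hcs : c ^ 2 + s ^ 2 = 1)
    (hc : |c| ≤ 1) (hs : |s| ≤ 1) :
    ∫ g : J3 ι → ℝ, f (mix c s (pu g) (pv g)) ∂(gpi (J3 ι)) = ∫ g, f g ∂(gpi ι) := by
  have h1 := (two_int hf (Dom.const 1) hc hs).2
  simp only [mul_one, integral_const, probReal_univ, smul_eq_mul] at h1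
  rw [h1, one_int hf hcs]

theorem int_uw {f : (ι → ℝ) → ℝ} (hf : Dom f) {c s : ℝ} (hcs : c ^ 2 + s ^ 2 = 1)
    (hc : |c| ≤ 1) (hs : |s| ≤ 1) :
    ∫ g : J3 ι → ℝ, f (mix c s (pu g) (pw g)) ∂(gpi (J3 ι)) = ∫ g, f g ∂(gpi ι) := by
  have h1 := (two_int (Dom.const 1) hf hc hs).2
  simp only [one_mul, integral_const, probReal_univ, smul_eq_mul] at h1
  rw [h1, one_int hf hcs]

/-- `E N²` is at most `E exp (2 a F)` -/
theorem sq_le {F : (ι → ℝ) → ℝ} (hF : Lin F) {c s : ℝ} (hcs : c ^ 2 + s ^ 2 = 1)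
    (hc : |c| ≤ 1) (hs : |s| ≤ 1) (a : ℝ) :
    ∫ z, (∫ y, Real.exp (a * F (mix c s z y)) ∂(gpi ι)) *
      (∫ y, Real.exp (a * F (mix c s z y)) ∂(gpi ι)) ∂(gpi ι) ≤
      ∫ g, Real.exp (2 * a * F g) ∂(gpi ι) := by
  have d1 : Dom (fun g => Real.exp (a * F g)) := (hF.const_mul a).dom_exp
  have d2 : Dom (fun g => Real.exp (2 * a * F g)) := (hF.const_mul (2 * a)).dom_exp
  rw [← (two_int d1 d1 hc hs).2]
  have e : ∫ g, Real.exp (2 * a * F g) ∂(gpi ι) =
      ∫ g : J3 ι → ℝ, (1 / 2 * Real.exp (2 * a * F (mix c s (pu g) (pv g))) +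
        1 / 2 * Real.exp (2 * a * F (mix c s (pu g) (pw g)))) ∂(gpi (J3 ι)) := by
    rw [int_add ((dom_uv d2 hc hs).const_mul _) ((dom_uw d2 hc hs).const_mul _),
      integral_const_mul, integral_const_mul, int_uv d2 hcs hc hs, int_uw d2 hcs hc hs]
    ring
  rw [e]
  refine int_mono ((dom_uv d1 hc hs).mul (dom_uw d1 hc hs))
    (((dom_uv d2 hc hs).const_mul _).add ((dom_uw d2 hc hs).const_mul _)) fun g => ?_
  have e1 : ∀ t : ℝ, Real.exp (2 * a * t) = Real.exp (a * t) ^ 2 := fun t => by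
    rw [← Real.exp_nat_mul]
    congr 1
    push_cast
    ring
  rw [e1, e1]
  nlinarith [sq_nonneg (Real.exp (a * F (mix c s (pu g) (pv g))) -
    Real.exp (a * F (mix c s (pu g) (pw g))))]

/-- `E N²` is at least `exp (2 a E F)` -/
theorem le_sq {F : (ι → ℝ) → ℝ} (hF : Lin F) {c s : ℝ} (hcs : c ^ 2 + s ^ 2 = 1)
    (hc : |c| ≤ 1) (hs : |s| ≤ 1) (a : ℝ) :
    Real.exp (2 * a * ∫ g, F g ∂(gpi ι)) ≤
    ∫ z, (∫ y, Real.exp (a * F (mix c s z y)) ∂(gpi ι)) *
      (∫ y, Real.exp (a * F (mix c s z y)) ∂(gpi ι)) ∂(gpi ι) := by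
  have d1 : Dom (fun g => Real.exp (a * F g)) := (hF.const_mul a).dom_exp
  rw [← (two_int d1 d1 hc hs).2]
  have e0 : ∀ g : J3 ι → ℝ, Real.exp (a * F (mix c s (pu g) (pv g))) *
      Real.exp (a * F (mix c s (pu g) (pw g))) =
      Real.exp (a * F (mix c s (pu g) (pv g)) + a * F (mix c s (pu g) (pw g))) := fun g => by
    rw [Real.exp_add]
  have dS : Dom (fun g : J3 ι → ℝ =>
      a * F (mix c s (pu g) (pv g)) + a * F (mix c s (pu g) (pw g))) :=
    ((dom_uv hF.dom hc hs).const_mul a).add ((dom_uw hF.dom hc hs).const_mul a)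
  have dE : Dom (fun g : J3 ι → ℝ =>
      Real.exp (a * F (mix c s (pu g) (pv g)) + a * F (mix c s (pu g) (pw g)))) :=
    ((dom_uv d1 hc hs).mul (dom_uw d1 hc hs)).congr fun g => (e0 g).symm
  have j := exp_integral_le dS.integrable dE.integrable
  rw [int_add ((dom_uv hF.dom hc hs).const_mul a) ((dom_uw hF.dom hc hs).const_mul a),
    integral_const_mul, integral_const_mul, int_uv hF.dom hcs hc hs,
    int_uw hF.dom hcs hc hs] at j
  simp_rw [e0]
  refine le_trans (Real.exp_le_exp.2 ?_) j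
  apply le_of_eq
  ring

/-- association -/
theorem assoc_le {F : (ι → ℝ) → ℝ} (hF : Lin F) {c s : ℝ} (hcs : c ^ 2 + s ^ 2 = 1)
    (hc : |c| ≤ 1) (hs : |s| ≤ 1) {a : ℝ} (ha : 0 ≤ a) :
    (∫ g, F g ∂(gpi ι)) * ∫ z, (∫ y, Real.exp (a * F (mix c s z y)) ∂(gpi ι)) *
      (∫ y, Real.exp (a * F (mix c s z y)) ∂(gpi ι)) ∂(gpi ι) ≤
    ∫ z, (∫ y, F (mix c s z y) * Real.exp (a * F (mix c s z y)) ∂(gpi ι)) *
      (∫ y, Real.exp (a * F (mix c s z y)) ∂(gpi ι)) ∂(gpi ι) := by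
  have d1 : Dom (fun g => Real.exp (a * F g)) := (hF.const_mul a).dom_exp
  have d3 : Dom (fun g => F g * Real.exp (a * F g)) := hF.dom.mul d1
  have q1 := (two_int d3 d1 hc hs).2
  have q2 := (two_int d1 d3 hc hs).2
  have q3 := (two_int d1 d1 hc hs).2
  have q4 : ∫ z, (∫ y, Real.exp (a * F (mix c s z y)) ∂(gpi ι)) *
      (∫ y, F (mix c s z y) * Real.exp (a * F (mix c s z y)) ∂(gpi ι)) ∂(gpi ι) =
      ∫ z, (∫ y, F (mix c s z y) * Real.exp (a * F (mix c s z y)) ∂(gpi ι)) *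
      (∫ y, Real.exp (a * F (mix c s z y)) ∂(gpi ι)) ∂(gpi ι) :=
    integral_congr_ae (Filter.Eventually.of_forall fun z => mul_comm _ _)
  rw [q4] at q2
  set m := ∫ g, F g ∂(gpi ι) with hm
  set X := ∫ z, (∫ y, F (mix c s z y) * Real.exp (a * F (mix c s z y)) ∂(gpi ι)) *
      (∫ y, Real.exp (a * F (mix c s z y)) ∂(gpi ι)) ∂(gpi ι) with hX
  set W := ∫ z, (∫ y, Real.exp (a * F (mix c s z y)) ∂(gpi ι)) *
      (∫ y, Real.exp (a * F (mix c s z y)) ∂(gpi ι)) ∂(gpi ι) with hW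
  -- the four functions on three blocks
  set U : (J3 ι → ℝ) → ℝ := fun g => F (mix c s (pu g) (pv g)) with hU
  set V : (J3 ι → ℝ) → ℝ := fun g => F (mix c s (pu g) (pw g)) with hV
  have dU : Dom U := dom_uv hF.dom hc hs
  have dV : Dom V := dom_uw hF.dom hc hs
  have dUe : Dom (fun g => Real.exp (a * U g)) := dom_uv d1 hc hs
  have dVe : Dom (fun g => Real.exp (a * V g)) := dom_uw d1 hc hs
  have dE : Dom (fun g => Real.exp (a * U g) * Real.exp (a * V g)) := dUe.mul dVe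
  have p1 : ∫ g, (U g * Real.exp (a * U g)) * Real.exp (a * V g) ∂(gpi (J3 ι)) = X := q1
  have p2 : ∫ g, Real.exp (a * U g) * (V g * Real.exp (a * V g)) ∂(gpi (J3 ι)) = X := q2
  have p3 : ∫ g, Real.exp (a * U g) * Real.exp (a * V g) ∂(gpi (J3 ι)) = W := q3
  have p4 : ∫ g, U g ∂(gpi (J3 ι)) = m := int_uv hF.dom hcs hc hs
  have p5 : ∫ g, V g ∂(gpi (J3 ι)) = m := int_uw hF.dom hcs hc hs
  -- the integrated inequality
  have pos : ∀ g, 0 ≤ ((U g * Real.exp (a * U g)) * Real.exp (a * V g) +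
      Real.exp (a * U g) * (V g * Real.exp (a * V g))) +
      ((-(2 * m)) * (Real.exp (a * U g) * Real.exp (a * V g)) +
      ((-Real.exp (a * (2 * m))) * (U g + V g) + 2 * m * Real.exp (a * (2 * m)))) := by
    intro g
    have e : ((U g * Real.exp (a * U g)) * Real.exp (a * V g) +
      Real.exp (a * U g) * (V g * Real.exp (a * V g))) +
      ((-(2 * m)) * (Real.exp (a * U g) * Real.exp (a * V g)) +
      ((-Real.exp (a * (2 * m))) * (U g + V g) + 2 * m * Real.exp (a * (2 * m)))) =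
      ((U g + V g) - 2 * m) * (Real.exp (a * (U g + V g)) - Real.exp (a * (2 * m))) := by
      rw [mul_add a, Real.exp_add]
      ring
    rw [e]
    rcases le_total (2 * m) (U g + V g) with h1 | h1
    · refine mul_nonneg (by linarith) ?_
      have := Real.exp_le_exp.2 (mul_le_mul_of_nonneg_left h1 ha)
      linarith
    · refine mul_nonneg_of_nonpos_of_nonpos (by linarith) ?_
      have := Real.exp_le_exp.2 (mul_le_mul_of_nonneg_left h1 ha)
      linarith
  have D1 : Dom (fun g => (U g * Real.exp (a * U g)) * Real.exp (a * V g)) := (dU.mul dUe).mul dVe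
  have D2 : Dom (fun g => Real.exp (a * U g) * (V g * Real.exp (a * V g))) := dUe.mul (dV.mul dVe)
  have D3 : Dom (fun g => (-(2 * m)) * (Real.exp (a * U g) * Real.exp (a * V g))) :=
    dE.const_mul _
  have D4 : Dom (fun g => (-Real.exp (a * (2 * m))) * (U g + V g)) := (dU.add dV).const_mul _
  have D5 : Dom (fun _ : J3 ι → ℝ => 2 * m * Real.exp (a * (2 * m))) := Dom.const _
  have I := integral_nonneg (μ := gpi (J3 ι)) (f := fun g =>
      ((U g * Real.exp (a * U g)) * Real.exp (a * V g) +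
      Real.exp (a * U g) * (V g * Real.exp (a * V g))) +
      ((-(2 * m)) * (Real.exp (a * U g) * Real.exp (a * V g)) +
      ((-Real.exp (a * (2 * m))) * (U g + V g) + 2 * m * Real.exp (a * (2 * m))))) pos
  rw [int_add (D1.add D2) (D3.add (D4.add D5)), int_add D1 D2, int_add D3 (D4.add D5),
    int_add D4 D5, integral_const_mul, integral_const_mul, int_add dU dV, p1, p2, p3, p4, p5,
    integral_const, probReal_univ, smul_eq_mul] at I
  nlinarith [I]

section main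

variable {F : (ι → ℝ) → ℝ} {G : ι → (ι → ℝ) → ℝ}

/-- the total inequality, over the conditional one -/
theorem tilt_total0 (hF : Lin F) (hG : ∀ i, Lin (G i))
    {c s a x L : ℝ} (hcs : c ^ 2 + s ^ 2 = 1) (ha : 0 ≤ a) (hx : 0 ≤ x)
    (tc : ∀ z : ι → ℝ, (∫ y, Real.exp (a * F (mix c s z y)) ∂(gpi ι)) *
      Real.exp (x * ((∫ y, F (mix c s z y) * Real.exp (a * F (mix c s z y)) ∂(gpi ι)) /
          (∫ y, Real.exp (a * F (mix c s z y)) ∂(gpi ι))) +
        x ^ 2 * s ^ 2 / 2 * ∑ i, ((∫ y, G i (mix c s z y) *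
          Real.exp (a * F (mix c s z y)) ∂(gpi ι)) /
            (∫ y, Real.exp (a * F (mix c s z y)) ∂(gpi ι))) ^ 2) ≤
      ∫ y, Real.exp ((a + x) * F (mix c s z y)) ∂(gpi ι))
    (hL : ∫ g, Real.exp (2 * (a + x) * F g) ∂(gpi ι) ≤
      Real.exp (2 * (a + x) * (∫ g, F g ∂(gpi ι)) + L)) :
    x ^ 2 * s ^ 2 * ∑ i, ∫ z, (∫ y, G i (mix c s z y) *
      Real.exp (a * F (mix c s z y)) ∂(gpi ι)) ^ 2 ∂(gpi ι) ≤
      (∫ g, Real.exp (2 * a * F g) ∂(gpi ι)) * L := by
  have hc1 : |c| ≤ 1 := abs_le_one_iff_mul_self_le_one.2 (by nlinarith [sq_nonneg s])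
  have hs1 : |s| ≤ 1 := abs_le_one_iff_mul_self_le_one.2 (by nlinarith [sq_nonneg c])
  have d1 : Dom (fun g => Real.exp (a * F g)) := (hF.const_mul a).dom_exp
  have d2 : Dom (fun g => Real.exp ((a + x) * F g)) := (hF.const_mul (a + x)).dom_exp
  have d3 : Dom (fun g => F g * Real.exp (a * F g)) := hF.dom.mul d1
  have d4 : ∀ i, Dom (fun g => G i g * Real.exp (a * F g)) := fun i => (hG i).dom.mul d1
  set N : (ι → ℝ) → ℝ := fun z => ∫ y, Real.exp (a * F (mix c s z y)) ∂(gpi ι) with hN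
  set N' : (ι → ℝ) → ℝ := fun z => ∫ y, Real.exp ((a + x) * F (mix c s z y)) ∂(gpi ι) with hN'
  set A : (ι → ℝ) → ℝ := fun z => ∫ y, F (mix c s z y) * Real.exp (a * F (mix c s z y)) ∂(gpi ι)
    with hA
  set Q : ι → (ι → ℝ) → ℝ := fun i z => ∫ y, G i (mix c s z y) *
      Real.exp (a * F (mix c s z y)) ∂(gpi ι) with hQ
  have hNpos : ∀ z, 0 < N z := fun z => by
    have h1 : Integrable (fun y => Real.exp (a * F (mix c s z y))) (gpi ι) :=
      ((hF.fix hc1 hs1 z).const_mul a).dom_exp.integrable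
    exact integral_exp_pos h1
  have iN : Integrable (fun z => N z * N z) (gpi ι) := (two_int d1 d1 hc1 hs1).1
  have iN' : Integrable (fun z => N' z * N' z) (gpi ι) := (two_int d2 d2 hc1 hs1).1
  have iA : Integrable (fun z => A z * N z) (gpi ι) := (two_int d3 d1 hc1 hs1).1
  have iQ : ∀ i, Integrable (fun z => Q i z ^ 2) (gpi ι) := fun i => by
    have := (two_int (d4 i) (d4 i) hc1 hs1).1
    simp only [← sq] at this
    exact this
  set W := ∫ z, N z * N z ∂(gpi ι) with hW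
  set m := ∫ g, F g ∂(gpi ι) with hm
  set T := ∑ i, ∫ z, Q i z ^ 2 ∂(gpi ι) with hT
  have w1 : Real.exp (2 * a * m) ≤ W := le_sq hF hcs hc1 hs1 a
  have w2 : W ≤ ∫ g, Real.exp (2 * a * F g) ∂(gpi ι) := sq_le hF hcs hc1 hs1 a
  have w3 : ∫ z, N' z * N' z ∂(gpi ι) ≤ ∫ g, Real.exp (2 * (a + x) * F g) ∂(gpi ι) :=
    sq_le hF hcs hc1 hs1 (a + x)
  have w4 : m * W ≤ ∫ z, A z * N z ∂(gpi ι) := assoc_le hF hcs hc1 hs1 ha
  have hW0 : 0 < W := (Real.exp_pos _).trans_le w1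
  set Y := ∫ z, A z * N z ∂(gpi ι) with hY
  set M := (2 * x * Y + x ^ 2 * s ^ 2 * T) / W with hM
  have hMW : M * W = 2 * x * Y + x ^ 2 * s ^ 2 * T := by
    rw [hM]
    field_simp
  have pt : ∀ z, Real.exp M * ((1 - M) * (N z * N z) + (2 * x * (A z * N z) +
      x ^ 2 * s ^ 2 * ∑ i, Q i z ^ 2)) ≤ N' z * N' z := by
    intro z
    have hn := hNpos z
    have h1 := tc z
    set φ := x * (A z / N z) + x ^ 2 * s ^ 2 / 2 * ∑ i, (Q i z / N z) ^ 2 with hφ
    have h2 : N z * Real.exp φ ≤ N' z := h1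
    have h3 : (N z * Real.exp φ) * (N z * Real.exp φ) ≤ N' z * N' z :=
      mul_self_le_mul_self (by positivity) h2
    refine le_trans ?_ h3
    have h4 := Real.add_one_le_exp (2 * φ - M)
    have h5 : Real.exp (2 * φ) = Real.exp M * Real.exp (2 * φ - M) := by
      rw [← Real.exp_add]; congr 1; ring
    have h6 : (N z * Real.exp φ) * (N z * Real.exp φ) = (N z * N z) * Real.exp (2 * φ) := by
      have e9 : Real.exp (2 * φ) = Real.exp φ * Real.exp φ := by
        rw [two_mul φ, Real.exp_add]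
      rw [e9]
      generalize Real.exp φ = E
      ring
    have h7 : (1 - M) * (N z * N z) + (2 * x * (A z * N z) + x ^ 2 * s ^ 2 * ∑ i, Q i z ^ 2) =
        (N z * N z) * (2 * φ - M + 1) := by
      have h8 : ∑ i, (Q i z / N z) ^ 2 = (∑ i, Q i z ^ 2) / N z ^ 2 := by
        rw [Finset.sum_div]
        exact Finset.sum_congr rfl fun i _ => div_pow _ _ _
      rw [hφ, h8]
      field_simp
      ring
    rw [h6, h5, h7]
    have h9 : 0 ≤ Real.exp M * (N z * N z) := by positivity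
    nlinarith [mul_le_mul_of_nonneg_left h4 h9]
  have iS : Integrable (fun z => ∑ i, Q i z ^ 2) (gpi ι) := integrable_finsetSum _ fun i _ => iQ i
  have j1 : Integrable (fun z => (1 - M) * (N z * N z)) (gpi ι) := iN.const_mul _
  have j2 : Integrable (fun z => 2 * x * (A z * N z)) (gpi ι) := iA.const_mul _
  have j3 : Integrable (fun z => x ^ 2 * s ^ 2 * ∑ i, Q i z ^ 2) (gpi ι) := iS.const_mul _
  have j4 : Integrable (fun z => 2 * x * (A z * N z) + x ^ 2 * s ^ 2 * ∑ i, Q i z ^ 2) (gpi ι) :=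
    j2.add j3
  have I1 : ∫ z, Real.exp M * ((1 - M) * (N z * N z) + (2 * x * (A z * N z) +
      x ^ 2 * s ^ 2 * ∑ i, Q i z ^ 2)) ∂(gpi ι) = Real.exp M * W := by
    rw [integral_const_mul, integral_add j1 j4, integral_add j2 j3, integral_const_mul,
      integral_const_mul, integral_const_mul, integral_finsetSum _ fun i _ => iQ i]
    have : (1 - M) * W + (2 * x * Y + x ^ 2 * s ^ 2 * T) = W := by
      rw [← hMW]; ring
    rw [this]
  have I2 : Real.exp M * W ≤ Real.exp (2 * (a + x) * m + L) := by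
    rw [← I1]
    refine le_trans (integral_mono ((j1.add j4).const_mul _) iN' pt) (w3.trans hL)
  have I3 : Real.exp (M + 2 * a * m) ≤ Real.exp (2 * (a + x) * m + L) := by
    rw [Real.exp_add]
    exact (mul_le_mul_of_nonneg_left w1 (Real.exp_pos M).le).trans I2
  have I4 := Real.exp_le_exp.1 I3
  have I5 : M * W ≤ (2 * x * m + L) * W :=
    mul_le_mul_of_nonneg_right (by linarith) hW0.le
  rw [hMW] at I5
  have I6 : 2 * x * (m * W) ≤ 2 * x * Y := mul_le_mul_of_nonneg_left w4 (by positivity)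
  have I7 : x ^ 2 * s ^ 2 * T ≤ L * W := by nlinarith
  have hT0 : 0 ≤ T := Finset.sum_nonneg fun i _ => integral_nonneg fun z => sq_nonneg _
  have hL0 : 0 ≤ L := by
    have h1 : 0 ≤ L * W := le_trans (by positivity) I7
    exact nonneg_of_mul_nonneg_left h1 hW0
  calc x ^ 2 * s ^ 2 * T ≤ L * W := I7
    _ ≤ L * ∫ g, Real.exp (2 * a * F g) ∂(gpi ι) := mul_le_mul_of_nonneg_left w2 hL0
    _ = _ := mul_comm _ _

end main

end Vale.Agent.P146.Ce
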