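import Vale.Agent.P146.Ce.CeTilt
import Vale.Agent.P146.Ce.CeTot0

/-!
# P146, Ce: the total inequality of the tilted measure
-/

open MeasureTheory ProbabilityTheory

namespace Vale.Agent.P146.Ce

open Vale.Agent.P146.Ub.Cv

variable {ι : Type} [Fintype ι] [DecidableEq ι] {F : (ι → ℝ) → ℝ} {G H : ι → (ι → ℝ) → ℝ} {B : ℝ}

theorem tilt_total (h : Reg F G H B) (hF : Lin F) (hG : ∀ i, Lin (G i))
    (hconv : ∀ z w : ι → ℝ, F z + ∑ i, G i z * w i ≤ F (fun i => z i + w i))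
    {c s a x L : ℝ} (hcs : c ^ 2 + s ^ 2 = 1) (ha : 0 ≤ a) (hx : 0 ≤ x) (_hL0 : 0 ≤ L)
    (hL : ∫ g, Real.exp (2 * (a + x) * F g) ∂(gpi ι) ≤
      Real.exp (2 * (a + x) * (∫ g, F g ∂(gpi ι)) + L)) :
    x ^ 2 * s ^ 2 * ∑ i, ∫ z, (∫ y, G i (mix c s z y) *
      Real.exp (a * F (mix c s z y)) ∂(gpi ι)) ^ 2 ∂(gpi ι) ≤
      (∫ g, Real.exp (2 * a * F g) ∂(gpi ι)) * L := by
  have hc1 : |c| ≤ 1 := abs_le_one_iff_mul_self_le_one.2 (by nlinarith [sq_nonneg s])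
  have hs1 : |s| ≤ 1 := abs_le_one_iff_mul_self_le_one.2 (by nlinarith [sq_nonneg c])
  exact tilt_total0 hF hG hcs ha hx (fun z => tilt_cond h hF hG hconv hc1 hs1 ha hx z) hL

end Vale.Agent.P146.Ce
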