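import Vale.Agent.P146.Ce.CeDefs
import Vale.Agent.P146.Ce.CeKK
import Vale.Agent.P146.Ce.CeTot

/-!
# P146, Ce: the upper tail at the scale of the bound of the variance
-/

open MeasureTheory ProbabilityTheory
open scoped ENNReal

namespace Vale.Agent.P146.Ce

open Vale.Agent.P146.Ub.Cv

section real

/-- `1 - v ≥ exp (-2 v)` on `[0, 1/2]` -/
theorem ce_exp {v : ℝ} (h0 : 0 ≤ v) (h1 : v ≤ 1 / 2) : Real.exp (-(2 * v)) ≤ 1 - v := by
  have h2 := Real.add_one_le_exp (2 * v)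
  rw [Real.exp_neg, inv_le_comm₀ (Real.exp_pos _) (by linarith)]
  refine le_trans ?_ h2
  rw [inv_eq_one_div, div_le_iff₀ (by linarith)]
  nlinarith

/-- the iteration -/
theorem ce_iter {ψ : ℝ → ℝ} {V K x : ℝ} (hV : 0 ≤ V)
    (hK : ∀ θ, 0 ≤ θ → θ ≤ x → ψ θ ≤ K * θ ^ 2)
    (hstep : ∀ a, 0 ≤ a → 2 * a ≤ x → ψ (2 * a) ≤ 2 * ψ a + 2 * a ^ 2 * V) {θ : ℝ}
    (h0 : 0 ≤ θ) (h1 : θ ≤ x) : ψ θ ≤ θ ^ 2 * V := by
  have key : ∀ k : ℕ, ψ θ ≤ 2 ^ k * ψ (θ / 2 ^ k) + θ ^ 2 * V * (1 - 1 / 2 ^ k) := by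
    intro k
    induction k with
    | zero => simp
    | succ k ih =>
      have e2 : (0 : ℝ) < 2 ^ (k + 1) := by positivity
      have h3 : 2 * (θ / 2 ^ (k + 1)) = θ / 2 ^ k := by
        rw [pow_succ]; field_simp
      have h4 : θ / 2 ^ k ≤ x := by
        refine le_trans (div_le_self h0 ?_) h1
        exact one_le_pow₀ (by norm_num)
      have h5 := hstep (θ / 2 ^ (k + 1)) (by positivity) (by rw [h3]; exact h4)
      rw [h3] at h5
      have h6 : (0 : ℝ) < 2 ^ k := by positivity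
      have h7 := mul_le_mul_of_nonneg_left h5 h6.le
      refine ih.trans ?_
      have e3 : (2 : ℝ) ^ k * (2 * ψ (θ / 2 ^ (k + 1)) + 2 * (θ / 2 ^ (k + 1)) ^ 2 * V) =
          2 ^ (k + 1) * ψ (θ / 2 ^ (k + 1)) + θ ^ 2 * V * (1 / 2 ^ (k + 1)) := by
        rw [pow_succ]; field_simp
      have e4 : (1 : ℝ) / 2 ^ (k + 1) = 1 / 2 ^ k / 2 := by
        rw [pow_succ]; field_simp
      rw [e3] at h7
      rw [e4] at h7 ⊢
      linarith
  have lim : Filter.Tendsto (fun k : ℕ => K * θ ^ 2 * (1 / 2 ^ k) + θ ^ 2 * V) Filter.atTop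
      (nhds (K * θ ^ 2 * 0 + θ ^ 2 * V)) := by
    have h2 : Filter.Tendsto (fun k : ℕ => (1 / 2 : ℝ) ^ k) Filter.atTop (nhds 0) :=
      tendsto_pow_atTop_nhds_zero_of_lt_one (by norm_num) (by norm_num)
    have h3 : (fun k : ℕ => (1 : ℝ) / 2 ^ k) = fun k : ℕ => (1 / 2 : ℝ) ^ k := by
      funext k; rw [one_div_pow]
    rw [← h3] at h2
    exact (h2.const_mul _).add_const _
  rw [mul_zero, zero_add] at lim
  refine ge_of_tendsto lim (Filter.Eventually.of_forall fun k => ?_)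
  have h6 : (0 : ℝ) < 2 ^ k := by positivity
  have h61 : (1 : ℝ) ≤ 2 ^ k := one_le_pow₀ (by norm_num)
  have h2 := hK (θ / 2 ^ k) (by positivity) ((div_le_self h0 h61).trans h1)
  have h3 := mul_le_mul_of_nonneg_left h2 h6.le
  have e1 : (2 : ℝ) ^ k * (K * (θ / 2 ^ k) ^ 2) = K * θ ^ 2 * (1 / 2 ^ k) := by
    field_simp
  rw [e1] at h3
  have h4 := key k
  have h5 : 0 ≤ θ ^ 2 * V * (1 / 2 ^ k) := by positivity
  nlinarith

/-- `exp v ≤ 1 + v + v² exp |v|` -/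
theorem ce_exp2 (v : ℝ) : Real.exp v ≤ 1 + v + v ^ 2 * Real.exp |v| := by
  have h1 := Real.abs_exp_sub_one_sub_id_le (x := v)
  rcases le_or_gt |v| 1 with h | h
  · have h2 := (abs_le.1 (h1 h)).2
    have h3 : v ^ 2 * 1 ≤ v ^ 2 * Real.exp |v| :=
      mul_le_mul_of_nonneg_left (Real.one_le_exp (abs_nonneg v)) (sq_nonneg v)
    linarith
  · rcases le_or_gt 0 v with h0 | h0
    · rw [abs_of_nonneg h0] at h ⊢
      have h3 : Real.exp v * 1 ≤ Real.exp v * v ^ 2 :=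
        mul_le_mul_of_nonneg_left (one_le_pow₀ h.le) (Real.exp_pos v).le
      linarith
    · rw [abs_of_neg h0] at h ⊢
      have h3 := Real.add_one_le_exp (-v)
      have h4 : Real.exp v ≤ 1 := Real.exp_le_one_iff.2 h0.le
      have h5 : v ^ 2 * (-v + 1) ≤ v ^ 2 * Real.exp (-v) :=
        mul_le_mul_of_nonneg_left h3 (sq_nonneg v)
      nlinarith
end real

variable {ι : Type} [Fintype ι]

variable [DecidableEq ι] {F : (ι → ℝ) → ℝ} {G H : ι → (ι → ℝ) → ℝ} {B : ℝ}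

/-- the variance of `exp (a F)` -/
theorem exp_var (h : Reg F G H B) (hF : Lin F) (hG : ∀ i, Lin (G i))
    (hconv : ∀ z w : ι → ℝ, F z + ∑ i, G i z * w i ≤ F (fun i => z i + w i))
    {M x L u a : ℝ} (hM : ∀ g, ∑ i, G i g ^ 2 ≤ M) (hx : 0 < x) (hL0 : 0 ≤ L) (ha : 0 ≤ a)
    (hL : ∫ g, Real.exp (2 * (a + x) * F g) ∂(gpi ι) ≤
      Real.exp (2 * (a + x) * (∫ g, F g ∂(gpi ι)) + L)) (hu : 0 < u) (hu1 : u ≤ 1) :
    ∫ g, Real.exp (2 * a * F g) ∂(gpi ι) - (∫ g, Real.exp (a * F g) ∂(gpi ι)) ^ 2 ≤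
      a ^ 2 * (∫ g, Real.exp (2 * a * F g) ∂(gpi ι)) *
        (M * u + L / x ^ 2 * (-Real.log u)) := by
  have hR := regD_exp h hF a
  set W : ℝ := ∫ g, Real.exp (2 * a * F g) ∂(gpi ι) with hW
  have hsq : ∀ g, Real.exp (a * F g) ^ 2 = Real.exp (2 * a * F g) := by
    intro g
    rw [← Real.exp_nat_mul]
    congr 1
    push_cast
    ring
  have hA : ∀ θ, Real.sin θ ^ 2 * phi (fun i g => a * G i g * Real.exp (a * F g)) θ ≤
      a ^ 2 * W * (L / x ^ 2) := by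
    intro θ
    rw [phi_eq hR.G_dom]
    have h1 := tilt_total h hF hG hconv (c := Real.cos θ) (s := Real.sin θ)
      (by rw [add_comm]; exact Real.sin_sq_add_cos_sq θ) ha hx.le hL0 hL
    have e1 : ∑ i, ∫ z, (∫ y, a * G i (mix (Real.cos θ) (Real.sin θ) z y) *
        Real.exp (a * F (mix (Real.cos θ) (Real.sin θ) z y)) ∂(gpi ι)) ^ 2 ∂(gpi ι) =
        a ^ 2 * ∑ i, ∫ z, (∫ y, G i (mix (Real.cos θ) (Real.sin θ) z y) *
        Real.exp (a * F (mix (Real.cos θ) (Real.sin θ) z y)) ∂(gpi ι)) ^ 2 ∂(gpi ι) := by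
      rw [Finset.mul_sum]
      refine Finset.sum_congr rfl fun i _ => ?_
      rw [← integral_const_mul]
      refine integral_congr_ae (Filter.Eventually.of_forall fun z => ?_)
      simp only
      simp_rw [mul_assoc]
      rw [integral_const_mul]
      ring
    rw [e1]
    set S : ℝ := ∑ i, ∫ z, (∫ y, G i (mix (Real.cos θ) (Real.sin θ) z y) *
        Real.exp (a * F (mix (Real.cos θ) (Real.sin θ) z y)) ∂(gpi ι)) ^ 2 ∂(gpi ι) with hS
    have h2 : Real.sin θ ^ 2 * S ≤ W * L / x ^ 2 := by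
      rw [le_div_iff₀ (by positivity)]
      linarith
    have h3 := mul_le_mul_of_nonneg_left h2 (sq_nonneg a)
    calc Real.sin θ ^ 2 * (a ^ 2 * S) = a ^ 2 * (Real.sin θ ^ 2 * S) := by ring
      _ ≤ a ^ 2 * (W * L / x ^ 2) := h3
      _ = a ^ 2 * W * (L / x ^ 2) := by ring
  have hM' : ∀ θ, phi (fun i g => a * G i g * Real.exp (a * F g)) θ ≤ a ^ 2 * W * M := by
    intro θ
    refine (phi_le_sq hR.G_dom θ).trans ?_
    have h1 : ∫ g, ∑ i, (a * G i g * Real.exp (a * F g)) ^ 2 ∂(gpi ι) ≤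
        ∫ g, a ^ 2 * M * Real.exp (2 * a * F g) ∂(gpi ι) := by
      refine int_mono (Dom.sum _ fun i _ => (hR.G_dom i).pow 2)
        (((hF.const_mul (2 * a)).dom_exp).const_mul _) fun g => ?_
      have e : ∑ i, (a * G i g * Real.exp (a * F g)) ^ 2 =
          a ^ 2 * (∑ i, G i g ^ 2) * Real.exp (2 * a * F g) := by
        rw [Finset.mul_sum, Finset.sum_mul]
        refine Finset.sum_congr rfl fun i _ => ?_
        rw [← hsq]
        ring
      rw [e]
      exact mul_le_mul_of_nonneg_right (mul_le_mul_of_nonneg_left (hM g) (sq_nonneg a))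
        (Real.exp_pos _).le
    rw [integral_const_mul] at h1
    refine h1.trans (le_of_eq ?_)
    rw [hW]; ring
  have h1 := var_le_phi hR hA hM' hu hu1
  simp_rw [hsq] at h1
  refine h1.trans (le_of_eq ?_)
  ring

theorem up_exp (h : Reg F G H B) (hF : Lin F) (hG : ∀ i, Lin (G i))
    (hconv : ∀ z w : ι → ℝ, F z + ∑ i, G i z * w i ≤ F (fun i => z i + w i))
    {M x L u V : ℝ} (hM : ∀ g, ∑ i, G i g ^ 2 ≤ M) (hx : 0 < x) (hL0 : 0 ≤ L)
    (hL : ∀ a, 0 ≤ a → 2 * a ≤ x → ∫ g, Real.exp (2 * (a + x) * F g) ∂(gpi ι) ≤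
      Real.exp (2 * (a + x) * (∫ g, F g ∂(gpi ι)) + L)) (hu : 0 < u) (hu1 : u ≤ 1)
    (hV : M * u + L / x ^ 2 * (-Real.log u) ≤ V) (hV0 : 0 < V) (hVx : 1 ≤ V * x ^ 2)
    {t : ℝ} (ht : 0 ≤ t) :
    (gpi ι).real {g | ∫ g, F g ∂(gpi ι) + t * √V ≤ F g} ≤ Real.exp (1 - t) := by
  set E : ℝ := ∫ g, F g ∂(gpi ι) with hE
  -- the logarithmic Laplace transform
  have lX : Lin (fun g => F g + -E) := hF.add (Lin.const _)
  set P : ℝ → ℝ := fun θ => ∫ g, Real.exp (θ * (F g + -E)) ∂(gpi ι) with hP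
  have hPpos : ∀ θ, 0 < P θ := fun θ =>
    mgf_pos (μ := gpi ι) (X := fun g => F g + -E) (lX.const_mul θ).dom_exp.integrable
  have hPeq : ∀ θ, ∫ g, Real.exp (θ * F g) ∂(gpi ι) = Real.exp (θ * E) * P θ := by
    intro θ
    rw [hP]
    simp only
    rw [← integral_const_mul]
    refine integral_congr_ae (Filter.Eventually.of_forall fun g => ?_)
    simp only
    rw [← Real.exp_add]
    congr 1
    ring
  set ψ : ℝ → ℝ := fun θ => Real.log (P θ) with hψ
  -- the size at zero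
  obtain ⟨K, hK⟩ : ∃ K : ℝ, ∀ θ, 0 ≤ θ → θ ≤ x → ψ θ ≤ K * θ ^ 2 := by
    have dX2 : Dom (fun g => (F g + -E) ^ 2 * Real.exp (x * |F g + -E|)) := by
      have l2 : Lin (fun g => |F g + -E|) := by
        obtain ⟨a, b, ha, hb, h1⟩ := lX.bound
        exact ⟨lX.cont.abs, a, b, ha, hb, fun g => by rw [abs_abs]; exact h1 g⟩
      exact (lX.dom.pow 2).mul (l2.const_mul x).dom_exp
    refine ⟨∫ g, (F g + -E) ^ 2 * Real.exp (x * |F g + -E|) ∂(gpi ι), fun θ h0 h1 => ?_⟩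
    have h2 : P θ ≤ ∫ g, (1 + θ * (F g + -E) +
        θ ^ 2 * ((F g + -E) ^ 2 * Real.exp (x * |F g + -E|))) ∂(gpi ι) := by
      refine int_mono ((lX.const_mul θ).dom_exp)
        (((Lin.const 1).add (lX.const_mul θ)).dom.add (dX2.const_mul _)) fun g => ?_
      refine (ce_exp2 _).trans ?_
      have h3 : |θ * (F g + -E)| ≤ x * |F g + -E| := by
        rw [abs_mul, abs_of_nonneg h0]
        exact mul_le_mul_of_nonneg_right h1 (abs_nonneg _)
      have h4 : (θ * (F g + -E)) ^ 2 * Real.exp |θ * (F g + -E)| ≤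
          (θ * (F g + -E)) ^ 2 * Real.exp (x * |F g + -E|) :=
        mul_le_mul_of_nonneg_left (Real.exp_le_exp.2 h3) (sq_nonneg _)
      have e : (θ * (F g + -E)) ^ 2 * Real.exp (x * |F g + -E|) =
          θ ^ 2 * ((F g + -E) ^ 2 * Real.exp (x * |F g + -E|)) := by ring
      rw [e] at h4
      linarith
    have e1 : ∫ g, (1 + θ * (F g + -E) + θ ^ 2 * ((F g + -E) ^ 2 *
        Real.exp (x * |F g + -E|))) ∂(gpi ι) =
        1 + θ ^ 2 * ∫ g, (F g + -E) ^ 2 * Real.exp (x * |F g + -E|) ∂(gpi ι) := by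
      rw [int_add ((Lin.const 1).add (lX.const_mul θ)).dom (dX2.const_mul _),
        int_add (Lin.const 1).dom (lX.const_mul θ).dom, integral_const_mul, integral_const_mul,
        int_add hF.dom (Lin.const (-E)).dom, ← hE]
      simp
    rw [e1] at h2
    have h3 := Real.log_le_sub_one_of_pos (hPpos θ)
    rw [hψ]
    simp only
    linarith
  -- the step
  have hstep : ∀ a, 0 ≤ a → 2 * a ≤ 1 / √V → ψ (2 * a) ≤ 2 * ψ a + 2 * a ^ 2 * V := by
    intro a ha hax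
    have hsV : 0 < √V := Real.sqrt_pos.2 hV0
    have hVx' : 1 / √V ≤ x := by
      rw [div_le_iff₀ hsV]
      have h1 : 1 ≤ (x * √V) ^ 2 := by
        rw [mul_pow, Real.sq_sqrt hV0.le]; linarith
      exact (one_le_sq_iff₀ (by positivity)).1 h1
    have haV : a ^ 2 * V ≤ 1 / 2 := by
      have h1 : 2 * a * √V ≤ 1 := by
        rwa [le_div_iff₀ hsV] at hax
      have h2 : (2 * a * √V) ^ 2 ≤ 1 := pow_le_one₀ (by positivity) h1
      have h3 : (2 * a * √V) ^ 2 = 4 * (a ^ 2 * V) := by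
        rw [mul_pow, mul_pow, Real.sq_sqrt hV0.le]; ring
      linarith
    have k := exp_var h hF hG hconv hM hx hL0 ha (hL a ha (hax.trans hVx')) hu hu1
    have hW : 0 < ∫ g, Real.exp (2 * a * F g) ∂(gpi ι) := by
      rw [hPeq]; exact mul_pos (Real.exp_pos _) (hPpos _)
    have k2 : a ^ 2 * (∫ g, Real.exp (2 * a * F g) ∂(gpi ι)) *
        (M * u + L / x ^ 2 * (-Real.log u)) ≤
        a ^ 2 * (∫ g, Real.exp (2 * a * F g) ∂(gpi ι)) * V :=
      mul_le_mul_of_nonneg_left hV (by positivity)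
    have k3 : (1 - a ^ 2 * V) * ∫ g, Real.exp (2 * a * F g) ∂(gpi ι) ≤
        (∫ g, Real.exp (a * F g) ∂(gpi ι)) ^ 2 := by
      linarith
    rw [hPeq, hPeq] at k3
    have e1 : (Real.exp (a * E) * P a) ^ 2 = Real.exp (2 * a * E) * P a ^ 2 := by
      rw [mul_pow, ← Real.exp_nat_mul]
      congr 2
      push_cast
      ring
    rw [e1] at k3
    have k4 : (1 - a ^ 2 * V) * P (2 * a) ≤ P a ^ 2 := by
      have h1 : Real.exp (2 * a * E) * ((1 - a ^ 2 * V) * P (2 * a)) ≤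
          Real.exp (2 * a * E) * P a ^ 2 := by
        linarith
      exact le_of_mul_le_mul_left h1 (Real.exp_pos _)
    have k5 : Real.exp (-(2 * (a ^ 2 * V))) * P (2 * a) ≤ P a ^ 2 :=
      (mul_le_mul_of_nonneg_right (ce_exp (by positivity) haV) (hPpos _).le).trans k4
    have k6 := Real.log_le_log (mul_pos (Real.exp_pos _) (hPpos _)) k5
    rw [Real.log_mul (Real.exp_pos _).ne' (hPpos _).ne', Real.log_exp, Real.log_pow] at k6
    push_cast at k6
    rw [hψ]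
    simp only
    linarith
  -- conclusion
  have hsV : 0 < √V := Real.sqrt_pos.2 hV0
  have hVx' : 1 / √V ≤ x := by
    rw [div_le_iff₀ hsV]
    have h1 : 1 ≤ (x * √V) ^ 2 := by
      rw [mul_pow, Real.sq_sqrt hV0.le]; linarith
    exact (one_le_sq_iff₀ (by positivity)).1 h1
  have k1 : ψ (1 / √V) ≤ (1 / √V) ^ 2 * V :=
    ce_iter hV0.le (fun θ h0 h1 => hK θ h0 (h1.trans hVx')) hstep (by positivity) le_rfl
  have e1 : (1 / √V) ^ 2 * V = 1 := by
    rw [div_pow, Real.sq_sqrt hV0.le]; field_simp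
  rw [e1] at k1
  have h2 := measure_ge_le_exp_mul_mgf (μ := gpi ι) (X := fun g => F g + -E) (t * √V)
    (show (0 : ℝ) ≤ 1 / √V by positivity) (lX.const_mul (1 / √V)).dom_exp.integrable
  have h3 : mgf (fun g => F g + -E) (gpi ι) (1 / √V) ≤ Real.exp 1 := by
    have h5 : 0 < mgf (fun g => F g + -E) (gpi ι) (1 / √V) := hPpos _
    rw [← Real.log_le_iff_le_exp h5]
    exact k1
  have h4 : {g | E + t * √V ≤ F g} = {g | t * √V ≤ F g + -E} := by
    ext g
    simp only [Set.mem_ofPred_eq]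
    constructor <;> intro h <;> linarith
  rw [h4]
  refine h2.trans ?_
  calc Real.exp (-(1 / √V) * (t * √V)) * mgf (fun g => F g + -E) (gpi ι) (1 / √V) ≤
      Real.exp (-(1 / √V) * (t * √V)) * Real.exp 1 :=
        mul_le_mul_of_nonneg_left h3 (Real.exp_pos _).le
    _ = Real.exp (1 - t) := by
        rw [← Real.exp_add]
        congr 1
        field_simp
        ring

end Vale.Agent.P146.Ce
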