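import Vale.Agent.P146.Ce.CeMain
import Vale.Agent.P146.Ce.CeLow
import Vale.Agent.P146.Lt.LtSK
import Vale.Agent.P146.Sx.Fin5

/-!
# P146, Ce: exponential concentration of the free energy at the scale `n^(49/100)`
-/

open MeasureTheory ProbabilityTheory

namespace Vale.Agent.P146.Ce

open Vale.Agent.P146.Ub.Cv
open Vale.Agent.P146.Sx (pv)

/-- the powers of `v = n^(1/900)` -/
theorem ce_pow {n : ℕ} (hn : 1 ≤ n) {v : ℝ} (hv : v = (n : ℝ) ^ (1 / 900 : ℝ)) :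
    1 ≤ v ∧ v ^ 900 = n ∧ (n : ℝ) ^ (35 / 36 : ℝ) = v ^ 875 ∧
      (n : ℝ) ^ (49 / 100 : ℝ) = v ^ 441 ∧ (n : ℝ) ^ (44 / 45 : ℝ) = v ^ 880 ∧
      1 + Real.log n ≤ 451 * v ^ 2 := by
  have hn1 : (1 : ℝ) ≤ n := by exact_mod_cast hn
  have hn0 : (0 : ℝ) < n := by linarith
  have hp : ∀ k : ℕ, v ^ k = (n : ℝ) ^ ((k : ℝ) / 900) := by
    intro k
    rw [hv, ← Real.rpow_natCast, ← Real.rpow_mul hn0.le]
    congr 1
    ring
  refine ⟨by rw [hv]; exact Real.one_le_rpow hn1 (by norm_num), ?_, ?_, ?_, ?_, ?_⟩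
  · rw [hp]; norm_num
  · rw [hp]; norm_num
  · rw [hp]; norm_num
  · rw [hp]; norm_num
  · rw [hp]
    have h1 := Real.log_le_rpow_div hn0.le (show (0 : ℝ) < 1 / 450 by norm_num)
    have h2 : (1 : ℝ) ≤ (n : ℝ) ^ (1 / 450 : ℝ) := Real.one_le_rpow hn1 (by norm_num)
    have h3 : (n : ℝ) ^ (1 / 450 : ℝ) / (1 / 450) = 450 * (n : ℝ) ^ (1 / 450 : ℝ) := by ring
    have h4 : ((2 : ℕ) : ℝ) / 900 = 1 / 450 := by norm_num
    rw [h4]
    linarith

/-- the upper tail -/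
theorem sk_up {β : ℝ} (hβ : 1 ≤ β) : ∃ D : ℝ, 0 < D ∧ ∀ n : ℕ, 1 ≤ n → ∀ s : ℝ, 0 ≤ s →
    (disorder n).real {g | ∫ g, freeEnergy n β g ∂(disorder n) + s * (n : ℝ) ^ (49 / 100 : ℝ) ≤
      freeEnergy n β g} ≤ Real.exp (1 - s / D) := by
  classical
  obtain ⟨C, hC1, hmom, -, hlow⟩ := Sx.moment hβ
  set K : ℝ := β ^ 2 / 2 + 8118 * C with hK
  have hKC : 8118 * C ≤ K := by rw [hK]; nlinarith [sq_nonneg β]
  have hK0 : 0 < K := by linarith
  refine ⟨√K, Real.sqrt_pos.2 hK0, fun n hn s hs => ?_⟩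
  have hn1 : (1 : ℝ) ≤ n := by exact_mod_cast hn
  have hn0 : (0 : ℝ) < n := by linarith
  obtain ⟨v, hv⟩ : ∃ v : ℝ, v = (n : ℝ) ^ (1 / 900 : ℝ) := ⟨_, rfl⟩
  obtain ⟨hv1, hvn, e35, e49, -, hlog⟩ := ce_pow hn hv
  have hv0 : 0 < v := by linarith
  set E : ℝ := ∫ g, freeEnergy n β g ∂(disorder n) with hE
  have hlow' := hlow n hn
  rw [← hE, e35] at hlow'
  set x : ℝ := 1 / (3 * v ^ 5) with hx
  have hx0 : 0 < x := by positivity
  have hL : ∀ a, 0 ≤ a → 2 * a ≤ x → ∫ g, Real.exp (2 * (a + x) * freeEnergy n β g) ∂(gpi (Pair n)) ≤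
      Real.exp (2 * (a + x) * (∫ g, freeEnergy n β g ∂(gpi (Pair n))) + 2 * C * v ^ 870) := by
    intro a ha hax
    obtain ⟨y, hy⟩ : ∃ y : ℝ, y = 2 * (a + x) := ⟨_, rfl⟩
    have hy0 : 0 < y := by rw [hy]; positivity
    have hyx : y ≤ 1 / v ^ 5 := by
      have h3 : 3 * x = 1 / v ^ 5 := by rw [hx]; field_simp
      rw [hy, ← h3]
      linarith
    have hy1 : y ≤ 1 := by
      refine hyx.trans ?_
      rw [div_le_one (by positivity)]
      exact one_le_pow₀ hv1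
    have h1 := hmom n hn y hy0 hy1
    have hpos : 0 < ∫ g, Real.exp (y * freeEnergy n β g) ∂(disorder n) :=
      mgf_pos (μ := disorder n) (X := freeEnergy n β) (Sx.integrable_exp n β y)
    rw [Real.log_le_iff_le_exp hpos] at h1
    rw [← hy]
    change ∫ g, Real.exp (y * freeEnergy n β g) ∂(disorder n) ≤ Real.exp (y * E + 2 * C * v ^ 870)
    refine h1.trans (Real.exp_le_exp.2 ?_)
    have h2 : y * (n * pv β) ≤ y * (E + C * v ^ 875) := mul_le_mul_of_nonneg_left hlow' hy0.le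
    have h3 : y * v ^ 875 ≤ v ^ 870 := by
      have h4 : y * v ^ 875 ≤ 1 / v ^ 5 * v ^ 875 :=
        mul_le_mul_of_nonneg_right hyx (by positivity)
      refine h4.trans (le_of_eq ?_)
      field_simp
    have h5 : (n : ℝ) * y ^ 6 ≤ v ^ 870 := by
      have h6 : y ^ 6 ≤ (1 / v ^ 5) ^ 6 := pow_le_pow_left₀ hy0.le hyx 6
      have h7 : (n : ℝ) * y ^ 6 ≤ n * (1 / v ^ 5) ^ 6 := mul_le_mul_of_nonneg_left h6 hn0.le
      refine h7.trans (le_of_eq ?_)
      rw [← hvn]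
      field_simp
    have h8 := mul_le_mul_of_nonneg_left h3 (by linarith : (0 : ℝ) ≤ C)
    have h9 := mul_le_mul_of_nonneg_left h5 (by linarith : (0 : ℝ) ≤ C)
    have e1 : y * (E + C * v ^ 875) = y * E + C * (y * v ^ 875) := by ring
    have e2 : C * n * y ^ 6 = C * (n * y ^ 6) := by ring
    rw [e1] at h2
    rw [e2]
    linarith
  have hV : β ^ 2 * n / 2 * (1 / n) + 2 * C * v ^ 870 / x ^ 2 * (-Real.log (1 / n)) ≤
      K * v ^ 882 := by
    have e1 : β ^ 2 * n / 2 * (1 / n) = β ^ 2 / 2 := by field_simp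
    have e2 : 2 * C * v ^ 870 / x ^ 2 = 18 * C * v ^ 880 := by
      rw [hx]; field_simp; ring
    have e3 : -Real.log (1 / n) = Real.log n := by
      rw [one_div, Real.log_inv, neg_neg]
    rw [e1, e2, e3]
    have h1 : 18 * C * v ^ 880 * Real.log n ≤ 18 * C * v ^ 880 * (451 * v ^ 2) :=
      mul_le_mul_of_nonneg_left (by linarith) (by positivity)
    have h2 : β ^ 2 / 2 ≤ β ^ 2 / 2 * v ^ 882 :=
      le_mul_of_one_le_right (by positivity) (one_le_pow₀ hv1)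
    have e4 : K * v ^ 882 = β ^ 2 / 2 * v ^ 882 + 18 * C * v ^ 880 * (451 * v ^ 2) := by
      rw [hK]; ring
    rw [e4]
    linarith
  have hVx : 1 ≤ K * v ^ 882 * x ^ 2 := by
    have e1 : K * v ^ 882 * x ^ 2 = K / 9 * v ^ 872 := by
      rw [hx]; field_simp; ring
    rw [e1]
    have h1 : (1 : ℝ) ≤ v ^ 872 := one_le_pow₀ hv1
    have h2 : 1 ≤ K / 9 := by linarith
    nlinarith
  have h := up_exp (reg_freeEnergy n β) (lin_freeEnergy n β) (Lt.lt_lin_grad n β)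
    (tangent_freeEnergy n β) (sum_gradF_sq n β) hx0 (by positivity) hL
    (u := 1 / n) (by positivity) (by rw [div_le_one hn0]; exact hn1) hV (by positivity) hVx
    (t := s / √K) (by positivity)
  have e : s / √K * √(K * v ^ 882) = s * (n : ℝ) ^ (49 / 100 : ℝ) := by
    have hsK : 0 < √K := Real.sqrt_pos.2 hK0
    have e1 : √(K * v ^ 882) = √K * v ^ 441 := by
      rw [Real.sqrt_mul hK0.le]
      congr 1
      rw [show v ^ 882 = (v ^ 441) ^ 2 by ring]
      exact Real.sqrt_sq (by positivity)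
    rw [e1, e49]
    field_simp
  rw [e] at h
  exact h

/-- the lower tail -/
theorem sk_dn {β : ℝ} (hβ : 1 ≤ β) : ∃ D : ℝ, 0 < D ∧ ∀ n : ℕ, 1 ≤ n → ∀ s : ℝ, 0 ≤ s →
    (disorder n).real {g | freeEnergy n β g ≤
      ∫ g, freeEnergy n β g ∂(disorder n) - s * (n : ℝ) ^ (49 / 100 : ℝ)} ≤
        2 * Real.exp (-(s / D)) := by
  classical
  obtain ⟨C, hC⟩ := Sx.var_upper5 hβ
  set K : ℝ := max C 1 * 451 with hK
  have hC1 : (1 : ℝ) ≤ max C 1 := le_max_right _ _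
  have hK0 : 0 < K := by positivity
  refine ⟨4 * √K, by positivity, fun n hn s hs => ?_⟩
  have hn1 : (1 : ℝ) ≤ n := by exact_mod_cast hn
  have hn0 : (0 : ℝ) < n := by linarith
  obtain ⟨v, hv⟩ : ∃ v : ℝ, v = (n : ℝ) ^ (1 / 900 : ℝ) := ⟨_, rfl⟩
  obtain ⟨hv1, hvn, -, e49, e44, hlog⟩ := ce_pow hn hv
  have hv0 : 0 < v := by linarith
  have hlog0 : 0 ≤ Real.log n := Real.log_nonneg hn1
  have lF := lin_freeEnergy n β
  have hmem : MemLp (freeEnergy n β) 2 (disorder n) := by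
    rw [memLp_two_iff_integrable_sq lF.cont.aestronglyMeasurable]
    exact (lF.dom.pow 2).integrable
  have hprob : IsProbabilityMeasure (disorder n) := by unfold disorder; infer_instance
  have hvar : Var[freeEnergy n β; disorder n] =
      ∫ g, freeEnergy n β g ^ 2 ∂(disorder n) - (∫ g, freeEnergy n β g ∂(disorder n)) ^ 2 := by
    rw [variance_eq_sub hmem]
    rfl
  have hV := hC n hn
  rw [hvar, e44] at hV
  have hV2 : ∫ g, freeEnergy n β g ^ 2 ∂(disorder n) - (∫ g, freeEnergy n β g ∂(disorder n)) ^ 2 ≤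
      (√K * v ^ 441) ^ 2 := by
    refine hV.trans ?_
    rw [mul_pow, Real.sq_sqrt hK0.le]
    have h1 : C * v ^ 880 * (1 + Real.log n) ≤ max C 1 * v ^ 880 * (451 * v ^ 2) := by
      gcongr
      exact le_max_left _ _
    refine h1.trans (le_of_eq ?_)
    rw [hK]; ring
  have h := low_exp (G := gradF n β) lF (tangent_freeEnergy n β)
    (σ := √K * v ^ 441) (by positivity) hV2 (t := s / √K) (by positivity)
  have hsK : 0 < √K := Real.sqrt_pos.2 hK0
  have e : s / √K * (√K * v ^ 441) = s * (n : ℝ) ^ (49 / 100 : ℝ) := by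
    rw [e49]
    field_simp
  have e2 : s / √K / 4 = s / (4 * √K) := by field_simp
  rw [e, e2] at h
  exact h

/-- two-sided exponential concentration at the scale `n^(49/100)` -/
theorem sk_conc {β : ℝ} (hβ : 1 ≤ β) : ∃ C a : ℝ, 1 ≤ C ∧ 0 < a ∧ ∀ n : ℕ, 1 ≤ n → ∀ t : ℝ,
    0 ≤ t → (disorder n).real {g | t * (n : ℝ) ^ (49 / 100 : ℝ) ≤
      |freeEnergy n β g - ∫ g, freeEnergy n β g ∂(disorder n)|} ≤ C * Real.exp (-(a * t)) := by
  obtain ⟨D₁, hD₁, h1⟩ := sk_up hβ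
  obtain ⟨D₂, hD₂, h2⟩ := sk_dn hβ
  have he : 0 < Real.exp 1 := Real.exp_pos 1
  refine ⟨Real.exp 1 + 2, min (1 / D₁) (1 / D₂), by linarith, by positivity,
    fun n hn t ht => ?_⟩
  have hprob : IsProbabilityMeasure (disorder n) := by unfold disorder; infer_instance
  set E : ℝ := ∫ g, freeEnergy n β g ∂(disorder n) with hE
  have hsub : {g | t * (n : ℝ) ^ (49 / 100 : ℝ) ≤ |freeEnergy n β g - E|} ⊆
      {g | E + t * (n : ℝ) ^ (49 / 100 : ℝ) ≤ freeEnergy n β g} ∪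
        {g | freeEnergy n β g ≤ E - t * (n : ℝ) ^ (49 / 100 : ℝ)} := by
    intro g hg
    have hg' : t * (n : ℝ) ^ (49 / 100 : ℝ) ≤ |freeEnergy n β g - E| := hg
    rcases le_abs.1 hg' with h | h
    · left
      show E + t * (n : ℝ) ^ (49 / 100 : ℝ) ≤ freeEnergy n β g
      linarith
    · right
      show freeEnergy n β g ≤ E - t * (n : ℝ) ^ (49 / 100 : ℝ)
      linarith
  refine (measureReal_mono hsub).trans ((measureReal_union_le _ _).trans ?_)
  have h3 := h1 n hn t ht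
  have h4 := h2 n hn t ht
  rw [← hE] at h3 h4
  have h5 : Real.exp (1 - t / D₁) ≤ Real.exp 1 * Real.exp (-(min (1 / D₁) (1 / D₂) * t)) := by
    rw [← Real.exp_add]
    refine Real.exp_le_exp.2 ?_
    have := mul_le_mul_of_nonneg_right (min_le_left (1 / D₁) (1 / D₂)) ht
    have e : 1 / D₁ * t = t / D₁ := by ring
    linarith
  have h6 : 2 * Real.exp (-(t / D₂)) ≤ 2 * Real.exp (-(min (1 / D₁) (1 / D₂) * t)) := by
    refine mul_le_mul_of_nonneg_left (Real.exp_le_exp.2 ?_) (by norm_num)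
    have := mul_le_mul_of_nonneg_right (min_le_right (1 / D₁) (1 / D₂)) ht
    have e : 1 / D₂ * t = t / D₂ := by ring
    linarith
  calc _ ≤ Real.exp (1 - t / D₁) + 2 * Real.exp (-(t / D₂)) := add_le_add h3 h4
    _ ≤ Real.exp 1 * Real.exp (-(min (1 / D₁) (1 / D₂) * t)) +
        2 * Real.exp (-(min (1 / D₁) (1 / D₂) * t)) := add_le_add h5 h6
    _ = _ := by ring

end Vale.Agent.P146.Ce
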