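import Vale.Agent.P146.Ce.CeDefs
import Vale.Agent.P146.Lt.LtSK

/-!
# P146, Ce: skeleton (statements only, never import)

`F` convex, `|∇F|² ≤ M`, one exponential moment `E exp (2 (a + x) F) ≤ exp (2 (a + x) E F + L)`.
Then `Var exp (a F) ≤ a² E exp (2 a F) (M u + L / x² log (1 / u))`, hence
`E exp (θ (F - E F)) ≤ exp (θ² V)` for `θ ≤ 1 / √V`, and two-sided exponential concentration.
-/

open MeasureTheory ProbabilityTheory
open scoped ENNReal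

namespace Vale.Agent.P146.Ce

open Vale.Agent.P146.Ub.Cv

variable {ι : Type} [Fintype ι]

section KK

/-! ### CeKK.lean: copies of `hasDerivAt_KK_aux`, `hasDerivAt_KK`, of the last part of
`var_le_of_exp_moment` (Ub/Conv0.lean) for `RegD` (the bound `|G i| ≤ B` is replaced by `Dom`). -/

variable [DecidableEq ι] {F : (ι → ℝ) → ℝ} {G H : ι → (ι → ℝ) → ℝ} {B : ℝ}

theorem kk_deriv (h : RegD F G H) (θ : ℝ) :
    HasDerivAt (KK F) (-(2 * Real.sin θ * Real.cos θ) * phi G θ) θ := by sorry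

theorem var_le_phi (h : RegD F G H) {A M : ℝ} (hA : ∀ θ, Real.sin θ ^ 2 * phi G θ ≤ A)
    (hM : ∀ θ, phi G θ ≤ M) {u : ℝ} (hu : 0 < u) (hu1 : u ≤ 1) :
    ∫ g, F g ^ 2 ∂(gpi ι) - (∫ g, F g ∂(gpi ι)) ^ 2 ≤ M * u + A * (-Real.log u) := by sorry

omit [DecidableEq ι] in
theorem phi_le_sq (hG : ∀ i, Dom (G i)) (θ : ℝ) :
    phi G θ ≤ ∫ g, ∑ i, G i g ^ 2 ∂(gpi ι) := by sorry

theorem regD_exp (h : Reg F G H B) (hF : Lin F) (a : ℝ) :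
    RegD (fun g => Real.exp (a * F g)) (fun i g => a * G i g * Real.exp (a * F g))
      (fun i g => (a * H i g + (a * G i g) ^ 2) * Real.exp (a * F g)) := by sorry

end KK

section TILT

/-! ### CeTilt.lean: copy of `cond_ineq` under the tilt `exp (a F)`. Shift `y -> y + u`
(`int_shift`), `u i = x s Ga i`, tangent `hconv`, Jensen for the probability `exp (a F) / Na`
(`exp_integral_le` or `e^h ≥ e^m (1 + h - m)` times the weight), and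
`∫ y_i exp (a F) = a s ∫ G_i exp (a F)` (`ibp`). -/

variable [DecidableEq ι] {F : (ι → ℝ) → ℝ} {G H : ι → (ι → ℝ) → ℝ} {B : ℝ}

theorem tilt_cond (h : Reg F G H B) (hF : Lin F) (hG : ∀ i, Lin (G i))
    (hconv : ∀ z w : ι → ℝ, F z + ∑ i, G i z * w i ≤ F (fun i => z i + w i))
    {c s a x : ℝ} (hc : |c| ≤ 1) (hs : |s| ≤ 1) (ha : 0 ≤ a) (hx : 0 ≤ x) (z : ι → ℝ) :
    (∫ y, Real.exp (a * F (mix c s z y)) ∂(gpi ι)) *
      Real.exp (x * ((∫ y, F (mix c s z y) * Real.exp (a * F (mix c s z y)) ∂(gpi ι)) /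
          (∫ y, Real.exp (a * F (mix c s z y)) ∂(gpi ι))) +
        x ^ 2 * s ^ 2 / 2 * ∑ i, ((∫ y, G i (mix c s z y) *
          Real.exp (a * F (mix c s z y)) ∂(gpi ι)) /
            (∫ y, Real.exp (a * F (mix c s z y)) ∂(gpi ι))) ^ 2) ≤
      ∫ y, Real.exp ((a + x) * F (mix c s z y)) ∂(gpi ι) := by sorry

end TILT

section TOT

/-! ### CeTot.lean (from `tilt_cond`). With `N z = ∫ exp (a F(mix z y))`, `Γ` the sum of squares: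
`E exp (2 (a + x) F) ≥ E_z N_{a+x}² ≥ E_z [N² exp (2 x Fa + x² s² Γ)] ≥ W exp (E_w (2 x Fa + x² s² Γ))`,
`W = E_z N² ≥ exp (2 a E F)` (Jensen), `W ≤ E exp (2 a F)` (Cauchy-Schwarz),
`E_z [N² Fa] ≥ E F * W` (association: `E [S exp (a S)] ≥ E S E exp (a S)` for `S = F(g) + F(g')`). -/

variable [DecidableEq ι] {F : (ι → ℝ) → ℝ} {G H : ι → (ι → ℝ) → ℝ} {B : ℝ}

theorem tilt_total (h : Reg F G H B) (hF : Lin F) (hG : ∀ i, Lin (G i))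
    (hconv : ∀ z w : ι → ℝ, F z + ∑ i, G i z * w i ≤ F (fun i => z i + w i))
    {c s a x L : ℝ} (hcs : c ^ 2 + s ^ 2 = 1) (ha : 0 ≤ a) (hx : 0 ≤ x) (hL0 : 0 ≤ L)
    (hL : ∫ g, Real.exp (2 * (a + x) * F g) ∂(gpi ι) ≤
      Real.exp (2 * (a + x) * (∫ g, F g ∂(gpi ι)) + L)) :
    x ^ 2 * s ^ 2 * ∑ i, ∫ z, (∫ y, G i (mix c s z y) *
      Real.exp (a * F (mix c s z y)) ∂(gpi ι)) ^ 2 ∂(gpi ι) ≤
      (∫ g, Real.exp (2 * a * F g) ∂(gpi ι)) * L := by sorry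

end TOT

section LOW

/-! ### CeLow.lean: the lower tail, from `gauss_pl` (Lt/LtPL.lean) with indicators:
`P(F ≤ v)` is log-concave in `v`; Chebyshev at `E F ± 2 σ`. -/

variable {F : (ι → ℝ) → ℝ} {G : ι → (ι → ℝ) → ℝ}

theorem low_exp (hF : Lin F)
    (hconv : ∀ z w : ι → ℝ, F z + ∑ i, G i z * w i ≤ F (fun i => z i + w i))
    {σ : ℝ} (hσ : 0 < σ) (hV : ∫ g, F g ^ 2 ∂(gpi ι) - (∫ g, F g ∂(gpi ι)) ^ 2 ≤ σ ^ 2)
    {t : ℝ} (ht : 0 ≤ t) :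
    (gpi ι).real {g | F g ≤ ∫ g, F g ∂(gpi ι) - t * σ} ≤ 2 * Real.exp (-(t / 4)) := by sorry

end LOW

section MAIN

/-! ### CeMain.lean (helper146) -/

variable [DecidableEq ι] {F : (ι → ℝ) → ℝ} {G H : ι → (ι → ℝ) → ℝ} {B : ℝ}

theorem up_exp (h : Reg F G H B) (hF : Lin F) (hG : ∀ i, Lin (G i))
    (hconv : ∀ z w : ι → ℝ, F z + ∑ i, G i z * w i ≤ F (fun i => z i + w i))
    {M x L u V : ℝ} (hM : ∀ g, ∑ i, G i g ^ 2 ≤ M) (hx : 0 < x) (hL0 : 0 ≤ L)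
    (hL : ∀ a, 0 ≤ a → 2 * a ≤ x → ∫ g, Real.exp (2 * (a + x) * F g) ∂(gpi ι) ≤
      Real.exp (2 * (a + x) * (∫ g, F g ∂(gpi ι)) + L)) (hu : 0 < u) (hu1 : u ≤ 1)
    (hV : M * u + L / x ^ 2 * (-Real.log u) ≤ V) (hV0 : 0 < V) (hVx : 1 ≤ V * x ^ 2)
    {t : ℝ} (ht : 0 ≤ t) :
    (gpi ι).real {g | ∫ g, F g ∂(gpi ι) + t * √V ≤ F g} ≤ Real.exp (1 - t) := by sorry

end MAIN

section SK

/-! ### CeSK.lean: the free energy (from `up_exp`, `low_exp`, Sx.moment, Sx.var_upper5) -/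

open Vale.Agent.P146

theorem sk_conc {β : ℝ} (hβ : 1 ≤ β) : ∃ C a : ℝ, 1 ≤ C ∧ 0 < a ∧ ∀ n : ℕ, 1 ≤ n → ∀ t : ℝ,
    0 ≤ t → (disorder n).real {g | t * (n : ℝ) ^ (49 / 100 : ℝ) ≤
      |freeEnergy n β g - ∫ g, freeEnergy n β g ∂(disorder n)|} ≤ C * Real.exp (-(a * t)) := by
  sorry

end SK

end Vale.Agent.P146.Ce
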