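import Vale.Agent.P146.Ub.Conv0

set_option linter.all false

/-!
# P146, Ce: the conditional inequality under the tilt `exp (a F)`
-/

open MeasureTheory ProbabilityTheory
open scoped ENNReal

namespace Vale.Agent.P146.Ce

open Vale.Agent.P146.Ub.Cv

variable {ι : Type} [Fintype ι]

/-- Jensen's inequality with a weight -/
lemma jensen_w {e h : (ι → ℝ) → ℝ} (de : Dom e) (lh : Lin h) (he : ∀ y, 0 < e y)
    (hN : 0 < ∫ y, e y ∂(gpi ι)) :
    (∫ y, e y ∂(gpi ι)) * Real.exp ((∫ y, e y * h y ∂(gpi ι)) / ∫ y, e y ∂(gpi ι)) ≤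
      ∫ y, e y * Real.exp (h y) ∂(gpi ι) := by
  set N := ∫ y, e y ∂(gpi ι) with hNd
  set m := (∫ y, e y * h y ∂(gpi ι)) / N with hm
  have h2 : ∫ y, e y * h y ∂(gpi ι) = m * N := by
    rw [hm, div_mul_cancel₀ _ hN.ne']
  have h1 : ∫ y, Real.exp m * (e y * h y + (1 - m) * e y) ∂(gpi ι) = N * Real.exp m := by
    rw [integral_const_mul, int_add (de.mul lh.dom) (de.const_mul _), integral_const_mul, ← hNd,
      h2]
    ring
  rw [← h1]
  refine integral_mono (((de.mul lh.dom).add (de.const_mul _)).const_mul _).integrable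
    (de.mul lh.dom_exp).integrable fun y => ?_
  have h3 := Real.add_one_le_exp (h y - m)
  have h4 : Real.exp (h y) = Real.exp m * Real.exp (h y - m) := by
    rw [← Real.exp_add]; congr 1; ring
  simp only
  rw [h4]
  have h5 := mul_le_mul_of_nonneg_left h3 (mul_pos (he y) (Real.exp_pos m)).le
  calc Real.exp m * (e y * h y + (1 - m) * e y) = e y * Real.exp m * (h y - m + 1) := by ring
    _ ≤ e y * Real.exp m * Real.exp (h y - m) := h5
    _ = e y * (Real.exp m * Real.exp (h y - m)) := by ring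

variable [DecidableEq ι] {F : (ι → ℝ) → ℝ} {G H : ι → (ι → ℝ) → ℝ} {B : ℝ}

/-- integration by parts under the tilt -/
lemma ibp_tilt (h : Reg F G H B) (hF : Lin F) (hG : ∀ i, Lin (G i)) {c s : ℝ} (hc : |c| ≤ 1)
    (hs : |s| ≤ 1) (a : ℝ) (z : ι → ℝ) (i : ι) :
    ∫ y, Real.exp (a * F (mix c s z y)) * y i ∂(gpi ι) =
      a * s * ∫ y, G i (mix c s z y) * Real.exp (a * F (mix c s z y)) ∂(gpi ι) := by
  have dE : Dom (fun y => Real.exp (a * F (mix c s z y))) := ((hF.fix hc hs z).const_mul a).dom_exp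
  have dG : Dom (fun y => (a * s) * (G i (mix c s z y) * Real.exp (a * F (mix c s z y)))) :=
    (((hG i).fix hc hs z).dom.mul dE).const_mul _
  have h1 := ibp i dE dG fun g t => by
    simp only [mix_upd_right]
    have d2 := comp_upd (f := F) (f' := G i) (i := i) (z := mix c s z g)
      (fun t => h.coord _ i t) (lin_deriv' s (c * z i) t)
    refine ((d2.const_mul a).exp).congr_deriv ?_
    ring
  rw [← integral_const_mul, ← h1]
  exact integral_congr_ae (Filter.Eventually.of_forall fun y => mul_comm _ _)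

theorem tilt_cond (h : Reg F G H B) (hF : Lin F) (hG : ∀ i, Lin (G i))
    (hconv : ∀ z w : ι → ℝ, F z + ∑ i, G i z * w i ≤ F (fun i => z i + w i))
    {c s a x : ℝ} (hc : |c| ≤ 1) (hs : |s| ≤ 1) (ha : 0 ≤ a) (hx : 0 ≤ x) (z : ι → ℝ) :
    (∫ y, Real.exp (a * F (mix c s z y)) ∂(gpi ι)) *
      Real.exp (x * ((∫ y, F (mix c s z y) * Real.exp (a * F (mix c s z y)) ∂(gpi ι)) /
          (∫ y, Real.exp (a * F (mix c s z y)) ∂(gpi ι))) +
        x ^ 2 * s ^ 2 / 2 * ∑ i, ((∫ y, G i (mix c s z y) *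
          Real.exp (a * F (mix c s z y)) ∂(gpi ι)) /
            (∫ y, Real.exp (a * F (mix c s z y)) ∂(gpi ι))) ^ 2) ≤
      ∫ y, Real.exp ((a + x) * F (mix c s z y)) ∂(gpi ι) := by
  set e : (ι → ℝ) → ℝ := fun y => Real.exp (a * F (mix c s z y)) with he
  set N := ∫ y, e y ∂(gpi ι) with hN
  set Γ : ι → ℝ := fun i => (∫ y, G i (mix c s z y) * e y ∂(gpi ι)) / N with hΓ
  set u : ι → ℝ := fun i => x * s * Γ i with hu
  have lF : Lin (fun y => F (mix c s z y)) := hF.fix hc hs z
  have lG : ∀ i, Lin (fun y => G i (mix c s z y)) := fun i => (hG i).fix hc hs z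
  have dE : Dom e := (lF.const_mul a).dom_exp
  have ep : ∀ y, 0 < e y := fun y => Real.exp_pos _
  have hNp : 0 < N := by
    rw [hN, integral_pos_iff_support_of_nonneg (fun y => (ep y).le) dE.integrable]
    have : Function.support e = Set.univ := Set.eq_univ_of_forall fun y => (ep y).ne'
    rw [this, measure_univ]
    exact one_pos
  have l1 : Lin (fun y : ι → ℝ => x * F (mix c s z y) +
      ∑ i, ((a + x) * s * u i) * G i (mix c s z y)) :=
    (lF.const_mul x).add (Lin.sum _ fun i _ => (lG i).const_mul _)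
  have l2 : Lin (fun y : ι → ℝ => ∑ i, (-u i) * y i + -((∑ i, u i ^ 2) / 2)) :=
    (Lin.sum _ fun i _ => (Lin.coord i).const_mul _).add (Lin.const _)
  have l3 := l1.add l2
  rw [int_shift u (fun y => Real.exp ((a + x) * F (mix c s z y)))]
  have j1 := jensen_w dE l3 ep hNp
  rw [← hN] at j1
  -- the mean of the exponent
  have e1 : (∫ y : ι → ℝ, e y * ((x * F (mix c s z y) +
      ∑ i, ((a + x) * s * u i) * G i (mix c s z y)) +
      (∑ i, (-u i) * y i + -((∑ i, u i ^ 2) / 2))) ∂(gpi ι)) / N =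
      x * ((∫ y, F (mix c s z y) * e y ∂(gpi ι)) / N) + x ^ 2 * s ^ 2 / 2 * ∑ i, Γ i ^ 2 := by
    have f1 : ∀ y : ι → ℝ, e y * ((x * F (mix c s z y) +
        ∑ i, ((a + x) * s * u i) * G i (mix c s z y)) +
        (∑ i, (-u i) * y i + -((∑ i, u i ^ 2) / 2))) =
        (x * (F (mix c s z y) * e y) +
        ∑ i, ((a + x) * s * u i) * (G i (mix c s z y) * e y)) +
        (∑ i, (-u i) * (e y * y i) + -((∑ i, u i ^ 2) / 2) * e y) := by
      intro y
      have g1 : ∑ i, ((a + x) * s * u i) * (G i (mix c s z y) * e y) =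
          (∑ i, ((a + x) * s * u i) * G i (mix c s z y)) * e y := by
        rw [Finset.sum_mul]
        exact Finset.sum_congr rfl fun i _ => by ring
      have g2 : ∑ i, (-u i) * (e y * y i) = (∑ i, (-u i) * y i) * e y := by
        rw [Finset.sum_mul]
        exact Finset.sum_congr rfl fun i _ => by ring
      rw [g1, g2]
      ring
    have d1 : Dom (fun y : ι → ℝ => F (mix c s z y) * e y) := lF.dom.mul dE
    have d2 : ∀ i, Dom (fun y : ι → ℝ => G i (mix c s z y) * e y) := fun i =>
      (lG i).dom.mul dE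
    have d3 : ∀ i : ι, Dom (fun y : ι → ℝ => e y * y i) := fun i => dE.mul (Dom.coord i)
    have f2 : ∫ y : ι → ℝ, ((x * (F (mix c s z y) * e y) +
        ∑ i, ((a + x) * s * u i) * (G i (mix c s z y) * e y)) +
        (∑ i, (-u i) * (e y * y i) + -((∑ i, u i ^ 2) / 2) * e y)) ∂(gpi ι) =
        (x * (∫ y, F (mix c s z y) * e y ∂(gpi ι)) +
        ∑ i, ((a + x) * s * u i) * (∫ y, G i (mix c s z y) * e y ∂(gpi ι))) +
        (∑ i, (-u i) * (a * s * ∫ y, G i (mix c s z y) * e y ∂(gpi ι)) +
          -((∑ i, u i ^ 2) / 2) * N) := by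
      rw [int_add ((d1.const_mul x).add (Dom.sum _ fun i _ => (d2 i).const_mul _))
        ((Dom.sum _ fun i _ => (d3 i).const_mul _).add (dE.const_mul _)),
        int_add (d1.const_mul x) (Dom.sum _ fun i _ => (d2 i).const_mul _),
        int_add (Dom.sum _ fun i _ => (d3 i).const_mul _) (dE.const_mul _),
        int_sum _ fun i _ => ((d2 i).const_mul _), int_sum _ fun i _ => ((d3 i).const_mul _)]
      simp_rw [integral_const_mul]
      rw [← hN]
      congr 2
      refine Finset.sum_congr rfl fun i _ => ?_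
      rw [← ibp_tilt h hF hG hc hs a z i]
    have f3 : ∀ i, ∫ y, G i (mix c s z y) * e y ∂(gpi ι) = Γ i * N := by
      intro i
      simp only [hΓ]
      rw [div_mul_cancel₀ _ hNp.ne']
    have f4 : ∑ i, ((a + x) * s * u i) * (Γ i * N) = (a + x) * s * N * ∑ i, u i * Γ i := by
      rw [Finset.mul_sum]
      exact Finset.sum_congr rfl fun i _ => by ring
    have f5 : ∑ i, (-u i) * (a * s * (Γ i * N)) = -(a * s * N) * ∑ i, u i * Γ i := by
      rw [Finset.mul_sum]
      exact Finset.sum_congr rfl fun i _ => by ring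
    have f6 : ∑ i, u i * Γ i = x * s * ∑ i, Γ i ^ 2 := by
      rw [Finset.mul_sum]
      exact Finset.sum_congr rfl fun i _ => by simp only [hu]; ring
    have f7 : ∑ i, u i ^ 2 = x ^ 2 * s ^ 2 * ∑ i, Γ i ^ 2 := by
      rw [Finset.mul_sum]
      exact Finset.sum_congr rfl fun i _ => by simp only [hu]; ring
    rw [integral_congr_ae (Filter.Eventually.of_forall f1), f2]
    simp_rw [f3]
    rw [f4, f5, f6, f7]
    field_simp
    ring
  rw [e1] at j1
  refine j1.trans (integral_mono (dE.mul l3.dom_exp).integrable ?_ fun y => ?_)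
  · have l4 : Lin (fun y : ι → ℝ => (a + x) * F (mix c s z (fun i => y i + u i)) +
        (∑ i, (-u i) * y i + -((∑ i, u i ^ 2) / 2))) :=
      ((hF.fix_shift hc hs z u).const_mul (a + x)).add l2
    refine (l4.dom_exp.integrable).congr (Filter.Eventually.of_forall fun y => ?_)
    simp only
    rw [← Real.exp_add]
    congr 1
    have e4 : ∑ i, -u i * y i = -∑ i, u i * y i := by
      rw [← Finset.sum_neg_distrib]
      exact Finset.sum_congr rfl fun i _ => by ring
    rw [e4]
    ring
  · simp only [he]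
    rw [← Real.exp_add, ← Real.exp_add]
    refine Real.exp_le_exp.2 ?_
    have h1 := hconv (mix c s z y) (fun i => s * u i)
    have e5 : (fun i => mix c s z y i + s * u i) = mix c s z (fun i => y i + u i) := by
      funext i
      simp only [mix_apply]
      ring
    rw [e5] at h1
    have h2 := mul_le_mul_of_nonneg_left h1 (add_nonneg ha hx)
    have e6 : (a + x) * (F (mix c s z y) + ∑ i, G i (mix c s z y) * (s * u i)) =
        a * F (mix c s z y) + x * F (mix c s z y) +
          ∑ i, (a + x) * s * u i * G i (mix c s z y) := by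
      rw [mul_add, Finset.mul_sum, add_mul]
      congr 1
      exact Finset.sum_congr rfl fun i _ => by ring
    have e4 : ∑ i, -u i * y i = -∑ i, u i * y i := by
      rw [← Finset.sum_neg_distrib]
      exact Finset.sum_congr rfl fun i _ => by ring
    rw [e6] at h2
    rw [e4]
    linarith

end Vale.Agent.P146.Ce
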